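import Vale.Agent.P322.Main
import Vale.Agent.P322.Info

/-!
# The Courtade-Kumar conjecture

For every Boolean function of a uniform input on the cube, the mutual information with the
output of independent binary symmetric channels is at most `1 - h_2(ε)`, the value of a single
coordinate.
-/

namespace Vale.Agent.Results.P322.CourtadeKumar

open Vale.P322

theorem result :
    ∀ (n : ℕ) (f : (Fin n → Bool) → Bool) (ε : ℝ), 0 ≤ ε → ε ≤ 1 / 2 →
      mutualInfo (jointLaw f ε) ≤ 1 - Real.binEntropy ε / Real.log 2 := by
  intro n f ε h0 h1
  rw [mutualInfo_jointLaw f h0 h1, one_sub_binEntropy h0 h1]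
  have hL : (0:ℝ) < Real.log 2 := Real.log_pos (by norm_num)
  refine div_le_div_of_nonneg_right ?_ hL.le
  exact deficit_le f (by linarith) (by linarith)

end Vale.Agent.Results.P322.CourtadeKumar
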